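import Vale.Agent.P284.H287.T.Defs
import Vale.Agent.P284.H894.S.Spec
import Vale.Agent.P284.H119.Kaz
import Vale.Agent.P284.H10.T10a

/-!
# P284, theorem T (helper287, helper409): fundamental groups of compact Kähler manifolds dominated by
`ℂⁿ` with finite order and Kazhdan's property (T). Statements of the rows. FROZEN.

Design: board #17714 (helper287). `⟪·,·⟫` is `@inner ℝ H _`.
-/

open scoped Manifold ContDiff Topology Pointwise ComplexConjugate ComplexOrder InnerProductSpace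
open Filter Set Metric MeasureTheory

noncomputable section

namespace Vale.Agent.P284.H409.T

open Vale.Agent.P272.K Vale.Agent.P284.H248 Vale.Agent.P284.H894 Vale.Agent.P284.H894.G
  Vale.Agent.P284.H894.V Vale.Agent.P284.H894.W Vale.Agent.P284.H913.V Vale.Agent.P284.H409.A
  Vale.Agent.P284.H287.T Vale.Agent.P284.H119.Kaz Vale.Agent.P284.H10.T

/-! ### Sections over the compact base -/

/-- **T2** (119): integration by parts and the Kähler identity (inequality form), `b` arbitrary. -/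
def T2Stmt : Prop :=
  ∀ (n : ℕ) (Γ : Type) [Group Γ] (C : Coc n Γ) (P : PU C) (K : KM C)
    (H : Type) [NormedAddCommGroup H] [InnerProductSpace ℝ H] [CompleteSpace H]
    (π : Γ →* (H ≃ₗᵢ[ℝ] H)) (b : Γ → H) (u : Γ → C.I → Cm n → H), Sec C π b u →
    (∀ v, Sec C π 0 v →
      BInt P K (fun a z => ⟪lapH (K.w a) (u 1 a) z, v 1 a z⟫_ℝ) =
        -BInt P K (fun a z => grH (K.w a) (u 1 a) (v 1 a) z)) ∧
    BInt P K (fun a z => hhH (K.w a) (u 1 a) (u 1 a) z) ≤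
      BInt P K (fun a z => ‖lapH (K.w a) (u 1 a) z‖ ^ 2)

/-- **T3** (730): dense range of `l - Δ` for large `l`. -/
def T3Stmt : Prop :=
  ∀ (n : ℕ) (Γ : Type) [Group Γ] (C : Coc n Γ) (P : PU C) (K : KM C)
    (H : Type) [NormedAddCommGroup H] [InnerProductSpace ℝ H] [CompleteSpace H]
    (π : Γ →* (H ≃ₗᵢ[ℝ] H)), ∃ l₀ : ℝ, 0 < l₀ ∧ ∀ l : ℝ, l₀ ≤ l → ∀ s, Sec C π 0 s →
    ∀ δ : ℝ, 0 < δ → ∃ v, Sec C π 0 v ∧
      BInt P K (fun a z => ‖l • v 1 a z - lapH (K.w a) (v 1 a) z - s 1 a z‖ ^ 2) < δ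

/-- **T4** (5): without invariant vectors, bounded in `L²` and energy `→ 0` implies weakly `→ 0`. -/
def T4Stmt : Prop :=
  ∀ (n : ℕ) (Γ : Type) [Group Γ] (C : Coc n Γ) (P : PU C) (K : KM C)
    (H : Type) [NormedAddCommGroup H] [InnerProductSpace ℝ H] [CompleteSpace H]
    (π : Γ →* (H ≃ₗᵢ[ℝ] H)), (∀ η : H, (∀ g, π g η = η) → η = 0) →
    ∀ h : ℕ → Γ → C.I → Cm n → H, (∀ j, Sec C π 0 (h j)) →
    (∃ B : ℝ, ∀ j, BInt P K (fun a z => ‖h j 1 a z‖ ^ 2) ≤ B) →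
    Tendsto (fun j => BInt P K (fun a z => grH (K.w a) (h j 1 a) (h j 1 a) z)) atTop (𝓝 0) →
    ∀ f, Sec C π 0 f →
    Tendsto (fun j => BInt P K (fun a z => ⟪h j 1 a z, f 1 a z⟫_ℝ)) atTop (𝓝 0)

/-- **T4F** (639): finite-dimensional, orthogonal to the invariant vectors: strong convergence. -/
def T4FStmt : Prop :=
  ∀ (n : ℕ) (Γ : Type) [Group Γ] (C : Coc n Γ) (P : PU C) (K : KM C)
    (H : Type) [NormedAddCommGroup H] [InnerProductSpace ℝ H] [FiniteDimensional ℝ H]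
    (π : Γ →* (H ≃ₗᵢ[ℝ] H)) (h : ℕ → Γ → C.I → Cm n → H), (∀ j, Sec C π 0 (h j)) →
    (∀ j, ∀ η : H, (∀ g, π g η = η) → BInt P K (fun a z => ⟪h j 1 a z, η⟫_ℝ) = 0) →
    (∃ B : ℝ, ∀ j, BInt P K (fun a z => ‖h j 1 a z‖ ^ 2) ≤ B) →
    Tendsto (fun j => BInt P K (fun a z => grH (K.w a) (h j 1 a) (h j 1 a) z)) atTop (𝓝 0) →
    Tendsto (fun j => BInt P K (fun a z => ‖h j 1 a z‖ ^ 2)) atTop (𝓝 0)

/-- **T5** (731): abstract lemma, with constants (compare `V8Stmt`). -/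
def T5Stmt : Prop :=
  ∀ (V : Type) [AddCommGroup V] [Module ℝ V] (ip en : V →ₗ[ℝ] V →ₗ[ℝ] ℝ) (L : V →ₗ[ℝ] V),
    (∀ f h, ip f h = ip h f) → (∀ f, 0 ≤ ip f f) → (∀ f h, en f h = en h f) → (∀ f, 0 ≤ en f f) →
    (∀ f h, ip (L f) h = -en f h) →
    (∃ l₀ : ℝ, 0 < l₀ ∧ ∀ l, l₀ ≤ l → ∀ f, ∀ δ : ℝ, 0 < δ → ∃ v,
      ip (l • v - L v - f) (l • v - L v - f) < δ) →
    (∀ h : ℕ → V, (∃ B : ℝ, ∀ j, ip (h j) (h j) ≤ B) →
      Tendsto (fun j => en (h j) (h j)) atTop (𝓝 0) → ∀ f, Tendsto (fun j => ip (h j) f) atTop (𝓝 0)) →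
    ∀ ε : ℝ, 0 < ε → (∃ f, en f f < ε * ip f f) → ∃ f, ip (L f) (L f) < ε * en f f

/-- **T6** (639): the section of an almost invariant vector, with constants independent of `π`. -/
def T6Stmt : Prop :=
  ∀ (n : ℕ) (Γ : Type) [Group Γ] (C : Coc n Γ) (P : PU C) (K : KM C),
    ∃ c A ε₁ : ℝ, 0 < c ∧ 0 < A ∧ 0 < ε₁ ∧
    ∀ (H : Type) [NormedAddCommGroup H] [InnerProductSpace ℝ H] [CompleteSpace H]
    (π : Γ →* (H ≃ₗᵢ[ℝ] H)) (ξ : H) (ε : ℝ), ‖ξ‖ = 1 → 0 ≤ ε → ε ≤ ε₁ →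
    (∀ s ∈ C.N, ‖π s ξ - ξ‖ ≤ ε) → ∃ f, Sec C π 0 f ∧
      c ≤ BInt P K (fun a z => ‖f 1 a z‖ ^ 2) ∧
      BInt P K (fun a z => grH (K.w a) (f 1 a) (f 1 a) z) ≤ A * ε ^ 2

/-- **T6U** (639): every cocycle has a section. -/
def T6UStmt : Prop :=
  ∀ (n : ℕ) (Γ : Type) [Group Γ] (C : Coc n Γ) (_ : PU C)
    (H : Type) [NormedAddCommGroup H] [InnerProductSpace ℝ H] (π : Γ →* (H ≃ₗᵢ[ℝ] H)) (b : Γ → H),
    (∀ g h, b (g * h) = b g + π g (b h)) → ∃ u, Sec C π b u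

/-- Conclusion of **T7** (287): the limit. -/
def T7Concl : Prop :=
  ∀ (n : ℕ) (Γ : Type) [Group Γ] (C : Coc n Γ) (P : PU C) (K : KM C),
    (∀ ε : ℝ, 0 < ε → ∃ (H : Type) (_ : NormedAddCommGroup H) (_ : InnerProductSpace ℝ H)
      (_ : CompleteSpace H) (π : Γ →* (H ≃ₗᵢ[ℝ] H)) (u : Γ → C.I → Cm n → H), Sec C π 0 u ∧
      BInt P K (fun a z => hhH (K.w a) (u 1 a) (u 1 a) z) <
        ε * BInt P K (fun a z => grH (K.w a) (u 1 a) (u 1 a) z)) →
    ∃ u B, LimFam C u B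

/-- Conclusion of **T8** (977): nonconstant pluriharmonic functions if the group is not Kazhdan. -/
def Part1T : Prop :=
  ∀ (n : ℕ) (X : Type) [TopologicalSpace X] [T2Space X] [CompactSpace X] [ConnectedSpace X]
    [ChartedSpace (Cm n) X] [IsManifold 𝓘(ℂ, Cm n) ω X]
    (w : Chart n X → Cm n → Matrix (Fin n) (Fin n) ℂ), IsKahler w →
    ∀ (E Γ : Type) [TopologicalSpace E] [ConnectedSpace E] [Group Γ] [MulAction Γ E] (p : E → X),
    IsGalois Γ p → ¬ Kazhdan Γ → ∃ (v : E → ℝ) (B : ℝ), IsPHB p w v B ∧ ∃ y y', v y ≠ v y'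

/-- **T8** (977) -/
def T8Stmt : Prop := T2Stmt → T3Stmt → T4Stmt → T5Stmt → T6Stmt → T7Concl → V15Stmt → Part1T

/-- a pluriharmonic section, on the balls of radius `2 r` -/
structure LimSec {n : ℕ} {Γ : Type} [Group Γ] (C : Coc n Γ) {H : Type} [NormedAddCommGroup H]
    [InnerProductSpace ℝ H] (π : Γ →* (H ≃ₗᵢ[ℝ] H)) (b : Γ → H) (h : Γ → C.I → Cm n → H) :
    Prop where
  smooth : ∀ γ a, ∀ z ∈ ball (C.c a) (2 * C.r a), ContDiffAt ℝ ∞ (h γ a) z
  hess : ∀ γ a, ∀ z ∈ ball (C.c a) (2 * C.r a), ∀ η : H, cHess (fun y => ⟪h γ a y, η⟫_ℝ) z = 0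
  compat : ∀ γ a b z, z ∈ C.O a b → z ∈ ball (C.c a) (2 * C.r a) →
    C.T a b z ∈ ball (C.c b) (2 * C.r b) → h γ a z = h (γ * C.κ a b z) b (C.T a b z)
  equi : ∀ g γ a, ∀ z ∈ ball (C.c a) (2 * C.r a), h (g * γ) a z = π g (h γ a z) + b g
  grad : ∃ B : ℝ, ∀ γ a, ∀ z ∈ ball (C.c a) (2 * C.r a), ‖fderiv ℝ (h γ a) z‖ ≤ B

/-- **T9L** (119 / 977): the limit of sections with values in a finite-dimensional space. -/
def T9LStmt : Prop :=
  ∀ (n : ℕ) (Γ : Type) [Group Γ] (C : Coc n Γ) (P : PU C) (K : KM C)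
    (H : Type) [NormedAddCommGroup H] [InnerProductSpace ℝ H] [FiniteDimensional ℝ H]
    (π : Γ →* (H ≃ₗᵢ[ℝ] H)) (b : Γ → H) (u : ℕ → Γ → C.I → Cm n → H), (∀ k, Sec C π b (u k)) →
    (∃ B : ℝ, ∀ k, BInt P K (fun a z => ‖u k 1 a z‖ ^ 2) ≤ B) →
    (∃ B : ℝ, ∀ k, BInt P K (fun a z => grH (K.w a) (u k 1 a) (u k 1 a) z) ≤ B) →
    Tendsto (fun k => BInt P K (fun a z => hhH (K.w a) (u k 1 a) (u k 1 a) z)) atTop (𝓝 0) →
    ∃ h, LimSec C π b h

/-- Conclusion of **T9** (977) on the pieces. -/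
def HodgeP : Prop :=
  ∀ (n : ℕ) (Γ : Type) [Group Γ] (C : Coc n Γ) (_ : PU C) (_ : KM C)
    (H : Type) [NormedAddCommGroup H] [InnerProductSpace ℝ H] [FiniteDimensional ℝ H]
    (π : Γ →* (H ≃ₗᵢ[ℝ] H)) (b : Γ → H), (∀ g h, b (g * h) = b g + π g (b h)) →
    ∃ h, LimSec C π b h

/-- **T9** (977) -/
def T9Stmt : Prop := T2Stmt → T3Stmt → T4FStmt → ResStmt → T6UStmt → T9LStmt → HodgeP

/-- Conclusion of **T9E**: Hodge theorem for cocycles in finite-dimensional orthogonal representations. -/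
def HodgeE : Prop :=
  ∀ (n : ℕ) (X : Type) [TopologicalSpace X] [T2Space X] [CompactSpace X] [ConnectedSpace X]
    [ChartedSpace (Cm n) X] [IsManifold 𝓘(ℂ, Cm n) ω X]
    (w : Chart n X → Cm n → Matrix (Fin n) (Fin n) ℂ), IsKahler w →
    ∀ (E Γ : Type) [TopologicalSpace E] [ConnectedSpace E] [Group Γ] [MulAction Γ E] (p : E → X),
    IsGalois Γ p →
    ∀ (H : Type) [NormedAddCommGroup H] [InnerProductSpace ℝ H] [FiniteDimensional ℝ H]
    (π : Γ →* (H ≃ₗᵢ[ℝ] H)) (b : Γ → H), (∀ g h, b (g * h) = b g + π g (b h)) →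
    ∃ h : E → H, (∀ g y, h (g • y) = π g (h y) + b g) ∧
      ∀ η : H, ∃ B, IsPHB p w (fun y => ⟪h y, η⟫_ℝ) B

/-- **T9E** (35): from the pieces to the covering. -/
def T9EStmt : Prop := HodgeP → HodgeE

/-! ### Groups -/

/-- **T10b** (10): a function in `AA S` comes from a cocycle in a finite-dimensional orthogonal
representation. -/
def T10bStmt : Prop :=
  ∀ (S : Type) [Group S] (b : S → ℝ), b ∈ AA S →
    ∃ (H : Type) (_ : NormedAddCommGroup H) (_ : InnerProductSpace ℝ H) (_ : FiniteDimensional ℝ H)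
      (π : S →* (H ≃ₗᵢ[ℝ] H)) (β : S → H) (l : H →L[ℝ] ℝ),
      (∀ g h, β (g * h) = β g + π g (β h)) ∧ ∀ g, b g = b 1 + l (β g)

/-- **T10G** (35): pluriharmonic functions with bounded gradient and orbits. -/
def T10GStmt : Prop :=
  ∀ (n : ℕ) (X : Type) [TopologicalSpace X] [T2Space X] [CompactSpace X] [ConnectedSpace X]
    [ChartedSpace (Cm n) X] [IsManifold 𝓘(ℂ, Cm n) ω X]
    (w : Chart n X → Cm n → Matrix (Fin n) (Fin n) ℂ), IsKahler w →
    ∀ (E Γ : Type) [TopologicalSpace E] [ConnectedSpace E] [Group Γ] [MulAction Γ E] (p : E → X),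
    IsGalois Γ p →
    (∀ u : E → ℝ, (∃ B, IsPHB p w u B) → ∀ g : Γ, ∃ B, IsPHB p w (fun y => u (g • y)) B) ∧
    (∀ u : E → ℝ, (∃ B, IsPHB p w u B) → ∀ y y' : E, ∃ C, ∀ g : Γ, |u (g • y) - u (g • y')| ≤ C) ∧
    ((∃ V : Submodule ℝ (E → ℝ), FiniteDimensional ℝ V ∧ ∀ u, (∃ B, IsPHB p w u B) → u ∈ V) →
      ∀ u : E → ℝ, (∃ B, IsPHB p w u B) → ∀ x : E, (∃ C, ∀ g : Γ, |u (g • x)| ≤ C) →
      ∀ y y', u y = u y') ∧
    (∀ S : Subgroup Γ, S.FiniteIndex → ∀ u : E → ℝ, (∃ B, IsPHB p w u B) →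
      (∀ g ∈ S, ∀ y, u (g • y) = u y) → ∀ y y', u y = u y')

/-- `G` has a finite-dimensional real representation whose image is not virtually solvable. -/
def NSRep (G : Type*) [Group G] : Prop :=
  ∃ (d : ℕ) (R : G →* Matrix.GeneralLinearGroup (Fin d) ℝ), ¬ VSol R.range

/-- Conclusion of **T10c** (10): covering group `S`, not Kazhdan, isomorphic to a normal subgroup
`T` of `G`. -/
def T10cConcl : Prop :=
  ∀ (n : ℕ) (X : Type) [TopologicalSpace X] [T2Space X] [CompactSpace X] [ConnectedSpace X]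
    [ChartedSpace (Cm n) X] [IsManifold 𝓘(ℂ, Cm n) ω X]
    (w : Chart n X → Cm n → Matrix (Fin n) (Fin n) ℂ), IsKahler w →
    ∀ (E S : Type) [TopologicalSpace E] [ConnectedSpace E] [Group S] [MulAction S E] (p : E → X),
    IsGalois S p → ¬ Kazhdan S →
    (∃ V : Submodule ℝ (E → ℝ), FiniteDimensional ℝ V ∧ ∀ u, (∃ B, IsPHB p w u B) → u ∈ V) →
    ∀ (G : Type) [Group G] (T : Subgroup G), T.Normal → ∀ _ : T ≃* S,
    VirtIndicable S ∨ NSRep G

/-- **T10c** -/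
def T10cStmt : Prop := Part1T → V15Stmt → HodgeE → T10bStmt → T10GStmt → T10cConcl

/-- Conclusion of **TK** (446): the kernel `K` of the period map is Kazhdan, or `G` has a
finite-dimensional representation with image not virtually solvable. -/
def KerTConcl : Prop :=
  ∀ (n : ℕ) (X : Type) [TopologicalSpace X] [T2Space X] [CompactSpace X] [ConnectedSpace X]
    [ChartedSpace (Cm n) X] [IsManifold 𝓘(ℂ, Cm n) ω X]
    (w : Chart n X → Cm n → Matrix (Fin n) (Fin n) ℂ), IsKahler w →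
    ∀ Φ : Cm n → X, FiniteOrder w Φ →
    ∀ (E Γ : Type) [TopologicalSpace E] [SimplyConnectedSpace E] [Group Γ] [MulAction Γ E]
      (p : E → X), IsGalois Γ p →
    ∀ (G K : Subgroup Γ) (N : ℕ) (F : E → Cm N) (c : Γ → Cm N), Alb p w G K F c →
    Kazhdan K ∨ NSRep G

/-- **TK** (446): `S' ≤ S` of finite index in `K`, characteristic in `K` (`K` finitely generated), hence
normal in `G`; fibre as in `fibStmtQ`; `T10cConcl`; `VirtIndicable` is excluded by `grpAStmt` (`q = id`),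
`uniConcl` and `end_of`. -/
def TKStmt : Prop := T10cConcl → KerTConcl

/-! ### The theorem -/

/-- `A` has a subgroup `G` of finite index which is an extension of `ℤᵐ`, `m ≤ 2 n`, by a finitely
generated group `K` all of whose amenable quotients are finite; `K` is Kazhdan, or `G` has a
finite-dimensional real representation whose image is not virtually solvable. -/
def StrT (n : ℕ) (A : Type) [Group A] : Prop :=
  ∃ (G : Subgroup A) (m : ℕ) (c : G →* Multiplicative (Fin m → ℤ)), G.FiniteIndex ∧ m ≤ 2 * n ∧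
    Function.Surjective c ∧ Group.FG c.ker ∧
    (∀ (Q : Type) [Group Q] (q : c.ker →* Q), Function.Surjective q → Folner Q → Finite Q) ∧
    (Kazhdan c.ker ∨ NSRep G)

/-- Theorem T on a simply connected covering -/
def MainT : Prop :=
  ∀ (n : ℕ) (X : Type) [TopologicalSpace X] [T2Space X] [CompactSpace X] [ConnectedSpace X]
    [ChartedSpace (Cm n) X] [IsManifold 𝓘(ℂ, Cm n) ω X]
    (w : Chart n X → Cm n → Matrix (Fin n) (Fin n) ℂ), IsKahler w →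
    ∀ Φ : Cm n → X, FiniteOrder w Φ →
    ∀ (E Γ : Type) [TopologicalSpace E] [SimplyConnectedSpace E] [Group Γ] [MulAction Γ E]
      (p : E → X), IsGalois Γ p → StrT n Γ

/-- Theorem T -/
def MainPiT : Prop :=
  ∀ (n : ℕ) (X : Type) [TopologicalSpace X] [T2Space X] [CompactSpace X] [ConnectedSpace X]
    [ChartedSpace (Cm n) X] [IsManifold 𝓘(ℂ, Cm n) ω X]
    (w : Chart n X → Cm n → Matrix (Fin n) (Fin n) ℂ), IsKahler w →
    ∀ Φ : Cm n → X, FiniteOrder w Φ → ∀ x : X, StrT n (FundamentalGroup X x)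

/-- **TP** (5) -/
def PiTStmt : Prop := MainT → MainPiT

theorem mainT_of (hA : AlbStmt2) (hK : S.KerStmt) (hLat : S.LatStmt) (hR : RankStmt2)
    (hL : LiftStmt) (hT : KerTConcl) : MainT := by
  intro n X _ _ _ _ _ _ w hw Φ hΦ E Γ _ _ _ _ p hp
  obtain ⟨G, K, N, F, c, hAl⟩ := hA n X w hw Φ hΦ E Γ p hp
  have hadd := alb_add hAl
  obtain ⟨hKf, hKq⟩ := hK n X w hw Φ hΦ E Γ p hp G K N F c hAl
  obtain ⟨c', hc', hker⟩ := hLat Γ G K N c hadd hAl.mem hAl.disc hAl.span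
  have hN := S.le_of_rank hR hL hw hΦ hp hAl
  have hKG : K ≤ G := fun g hg => ((hAl.mem g).1 hg).1
  let e : c'.ker ≃* K := (MulEquiv.subgroupCongr hker).trans (Subgroup.subgroupOfEquivOfLe hKG)
  refine ⟨G, 2 * N, c', hAl.fi, by omega, hc', ?_, ?_, ?_⟩
  · exact Group.fg_of_surjective (f := e.symm.toMonoidHom) e.symm.surjective
  · intro Q _ q hq hQ
    exact hKq Q (q.comp e.symm.toMonoidHom) (hq.comp e.symm.surjective) hQ
  · rcases hT n X w hw Φ hΦ E Γ p hp G K N F c hAl with h | h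
    · exact Or.inl (h.of_equiv e.symm)
    · exact Or.inr h

end Vale.Agent.P284.H409.T
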